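import Crest.Agent.X212.Win45.Slc
import Crest.Agent.X212.Sep15.Mono

/-!
# X212, SW-WIN (helper45), part 4: the terms are active only on windows of definite energy
-/

set_option autoImplicit false
set_option linter.unusedSectionVars false
noncomputable section
open scoped Manifold ContDiff Topology InnerProductSpace
open MeasureTheory Set Function Filter

namespace Crest.Agent.X212.Win45
open An Cyf70 Bki64 Sw Sw.En3
open Sep15.S (integrable_gn gn_nonneg tau_le tau_ne)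

theorem osc {L g : ℝ → ℝ} {a b ε A B : ℝ} (hL : ContDiffOn ℝ ∞ L (Ioo a b))
    (hd : ∀ t ∈ Ioo a b, |deriv L t| ≤ A * g t + B) (hA : 0 ≤ A) (hB : 0 ≤ B) (g0 : ∀ t, 0 ≤ g t)
    (h0 : 0 ≤ ε) (hε : ∫⁻ t in Ioo a b, ENNReal.ofReal (g t) ≤ ENNReal.ofReal ε) {t t' : ℝ}
    (ht : t ∈ Ioo a b) (ht' : t' ∈ Ioo a b) : |L t - L t'| ≤ A * ε + B * (b - a) := by
  wlog h : t' ≤ t generalizing t t'
  · rw [abs_sub_comm]; exact this ht' ht (le_of_not_ge h)
  have hs : Icc t' t ⊆ Ioo a b := Icc_subset_Ioo ht'.1 ht.2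
  have h1 : 0 ≤ b - a := by linarith [ht.1, ht.2]
  have h2 := (enorm_sub_le_lintegral_deriv_of_contDiffOn_Icc
    ((hL.of_le (by simp)).mono hs) h).trans ((lintegral_mono_set hs).trans
      (setLIntegral_mono' (g := fun t => ENNReal.ofReal A * ENNReal.ofReal (g t) + ENNReal.ofReal B)
        measurableSet_Ioo fun s hs => by
          rw [← ENNReal.ofReal_mul hA, ← ENNReal.ofReal_add (mul_nonneg hA (g0 s)) hB,
            ← ofReal_norm]
          exact ENNReal.ofReal_le_ofReal (hd s hs)))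
  rw [lintegral_add_right _ measurable_const, lintegral_const_mul' _ _ ENNReal.ofReal_ne_top,
    setLIntegral_const, Real.volume_Ioo, ← ofReal_norm] at h2
  refine (ENNReal.ofReal_le_ofReal_iff (by positivity)).1 (h2.trans ?_)
  rw [ENNReal.ofReal_add (by positivity) (by positivity), ENNReal.ofReal_mul hA,
    ENNReal.ofReal_mul hB]
  gcongr

theorem exists_sl {g : ℝ → ℝ} {s ε : ℝ} (h0 : 0 < ε)
    (h : ∫⁻ t in Ioo (s - 1 / 2) (s + 1 / 2), ENNReal.ofReal (g t) ≤ ENNReal.ofReal ε) :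
    ∃ t ∈ Ioo (s - 1 / 2) (s + 1 / 2), g t ≤ 2 * ε := by
  by_contra! hc
  have := (setLIntegral_mono' (μ := volume) measurableSet_Ioo fun t ht =>
    ENNReal.ofReal_le_ofReal (hc t ht).le).trans h
  rw [setLIntegral_const, Real.volume_Ioo, ← ENNReal.ofReal_mul (by positivity),
    ENNReal.ofReal_le_ofReal_iff h0.le] at this
  linarith

theorem av_le {f : ℝ → ℝ} {r η : ℝ} (hf : ContinuousOn f (Icc 0 1))
    (h : ∀ p ∈ Icc (0 : ℝ) 1, |f p - r| ≤ η) : |av f - r| ≤ η := by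
  have c : Continuous bp := (Real.smoothTransition.contDiff (n := 1)).continuous_deriv le_rfl
  have h0 : ∀ p, 0 ≤ bp p := fun _ => Real.smoothTransition.monotone.deriv_nonneg
  have h1 : ∫ p in Icc (0 : ℝ) 1, bp p = 1 := by
    rw [integral_Icc_eq_integral_Ioc, ← intervalIntegral.integral_of_le zero_le_one, bp,
      intervalIntegral.integral_deriv_eq_sub (fun x _ => (Real.smoothTransition.contDiff
        (n := 1)).differentiable one_ne_zero x) (c.intervalIntegrable _ _)]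
    simp
  have h2 : av f = ∫ p in Icc (0 : ℝ) 1, bp p * f p := by
    refine (setIntegral_eq_integral_of_forall_compl_eq_zero fun p hp => mul_eq_zero_of_left ?_ _).symm
    rcases not_and_or.1 hp with k | k
    · exact (EventuallyEq.deriv_eq ((gt_mem_nhds (not_le.1 k)).mono fun x hx =>
        Real.smoothTransition.zero_of_nonpos hx.le)).trans (deriv_const _ _)
    · exact (EventuallyEq.deriv_eq ((lt_mem_nhds (not_le.1 k)).mono fun x hx =>
        Real.smoothTransition.one_of_one_le hx.le)).trans (deriv_const _ _)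
  have i1 : IntegrableOn bp (Icc 0 1) := c.continuousOn.integrableOn_Icc
  have h3 : ∀ r, r = ∫ p in Icc (0 : ℝ) 1, bp p * r := fun r => by
    rw [integral_mul_const, h1, one_mul]
  rw [h2, h3 r, h3 η, ← integral_sub (f := fun p => bp p * f p)
    (c.continuousOn.mul hf).integrableOn_Icc (i1.mul_const r), ← Real.norm_eq_abs]
  refine norm_integral_le_of_norm_le (i1.mul_const η)
    ((ae_restrict_mem measurableSet_Icc).mono fun p hp => ?_)
  rw [← mul_sub, norm_mul, Real.norm_of_nonneg (h0 p)]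
  exact mul_le_mul_of_nonneg_left (h p hp) (h0 p)

variable {κ lam ν : Type} [Fintype κ] [Fintype lam] [Fintype ν] [DecidableEq ν]
  {e : En3 κ lam ν} {v : e.YC}

theorem ip_abs (h : e.OK) (hv : e.cyl.Adm (fz v)) {τ : κ → e.Y.M → ℝ} {C δ : ℝ} (hδ : 0 < δ)
    (hb : ∀ k y, |τ k y| ≤ C) : |ip (gr v) ⟨fun k y => 2 * τ k y, 0⟩| ≤
      δ⁻¹ * gn v + δ * (2 * Fintype.card κ * C ^ 2 * e.D.F.μ.real univ) := by
  have : IsFiniteMeasure e.D.F.μ := CompactSpace.isFiniteMeasure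
  rw [← mul_assoc, mul_comm _ (e.D.F.μ.real univ), ← smul_eq_mul (e.D.F.μ.real univ),
    ← integral_const, gn, ip, ip, ← integral_const_mul,
    ← integral_add ((integrable_gn h hv).const_mul _) (integrable_const _), ← Real.norm_eq_abs]
  refine norm_integral_le_of_norm_le (((integrable_gn h hv).const_mul _).add (integrable_const _))
    (.of_forall fun y => ?_)
  have h1 : 0 ≤ δ⁻¹ * (e.w * ⟪(gr v).Φ y, (gr v).Φ y⟫_ℝ) :=
    mul_nonneg (inv_pos.2 hδ).le (mul_nonneg h.cyl.w real_inner_self_nonneg)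
  have h2 : |∑ k, (gr v).a k y * (2 * τ k y)| ≤
      ∑ k, (δ⁻¹ * ((gr v).a k y * (gr v).a k y) + δ * C ^ 2) :=
    (Finset.abs_sum_le_sum_abs _ _).trans (Finset.sum_le_sum fun k _ => by
      have k1 := sq_le_sq' (abs_le.1 (hb k y)).1 (abs_le.1 (hb k y)).2
      have k2 : ∀ x z : ℝ, x * (2 * z) ≤ δ⁻¹ * (x * x) + δ * z ^ 2 := fun x z => by
        have : δ⁻¹ * (x - δ * z) ^ 2 = δ⁻¹ * (x * x) + δ * z ^ 2 - x * (2 * z) := by
          field_simp; ring
        nlinarith [mul_nonneg (inv_pos.2 hδ).le (sq_nonneg (x - δ * z))]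
      have k3 := k2 ((gr v).a k y) (τ k y)
      have k4 := k2 ((gr v).a k y) (-τ k y)
      rw [abs_le]
      constructor <;> nlinarith)
  rw [Finset.sum_add_distrib, ← Finset.mul_sum, Finset.sum_const, Finset.card_univ,
    nsmul_eq_mul] at h2
  simp only [Pi.zero_apply, inner_zero_right, mul_zero, add_zero, Real.norm_eq_abs, abs_mul, abs_two]
  linarith

/-- the Dirac equation holds and the curvature equation holds up to a bounded term -/
def Alm (c : e.ZC) (J : Set ℝ) (C : ℝ) : Prop := ∀ x ∈ univ ×ˢ J,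
  e.cyl.eD c x = e.b (nm (sl c x.2)) • e.m.ρ none x.1 (c.Φ x) ∧
    ‖e.cyl.eC c x + deriv e.f (hol (sl c x.2)) • e.ζ x.1‖ ≤ C

theorem gap0 (hD : DlStmt κ lam ν) (hP : PsyStmt κ lam ν) {g : e.Gen} (hg : g.OK) (hi : e.Inv)
    (C : ℝ) : ∃ ε > 0, ∀ (c : e.ZC) (a b s : ℝ), b - a ≤ 4 →
      Icc (s - 1 / 2) (s + 1 / 2) ⊆ Ioo a b → e.cyl.AdmOn c (univ ×ˢ Ioo a b) → Alm c (Ioo a b) C →
      Sup c (Ioo a b) C → en c (Ioo a b) ≤ ENNReal.ofReal ε → lb c s ∉ e.S := by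
  suffices h : ∃ η > 0, ∀ d : e.ZC × ℝ × ℝ × ℝ, (d.2.2.1 - d.2.1 ≤ 4 ∧
      Icc (d.2.2.2 - 1 / 2) (d.2.2.2 + 1 / 2) ⊆ Ioo d.2.1 d.2.2.1 ∧
      e.cyl.AdmOn d.1 (univ ×ˢ Ioo d.2.1 d.2.2.1) ∧ Alm d.1 (Ioo d.2.1 d.2.2.1) C ∧
      Sup d.1 (Ioo d.2.1 d.2.2.1) C ∧ en d.1 (Ioo d.2.1 d.2.2.1) ≤ ENNReal.ofReal (η ^ 2)) →
      lb d.1 d.2.2.2 ∉ e.S from
    let ⟨η, h0, h⟩ := h
    ⟨η ^ 2, by positivity, fun c a b s h1 h2 h3 h4 h5 h6 => h (c, a, b, s) ⟨h1, h2, h3, h4, h5, h6⟩⟩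
  refine exists_eta fun d hd => by_contra fun hc => ?_
  push Not at hc
  choose h1 h2 h3 h4 h5 h6 using hd
  set η : ℕ → ℝ := fun n => 1 / ((n : ℝ) + 1)
  have η0 : ∀ n, 0 < η n := fun n => Nat.one_div_pos_of_nat
  have ηt : Tendsto η atTop (𝓝 0) := tendsto_one_div_add_atTop_nhds_zero_nat
  have hs := fun n => Ioo_subset_Icc_self.trans (h2 n)
  choose t ht hgn using fun n => exists_sl (pow_pos (η0 n) 2)
    ((lintegral_mono_set (hs n)).trans (h6 n))
  have hv := fun n => adm_sl isOpen_Ioo (h3 n) (hs n (ht n))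
  obtain ⟨v₀, v', k1, k2, -, k3, -⟩ := hP.ps e hg.ok hg.w C ℕ (hyperfilter ℕ) _
    (fun n => ⟨hv n, fun y => h5 n (y, t n) ⟨trivial, hs n (ht n)⟩⟩)
    ((squeeze_zero (fun n => gn_nonneg hg.w.le _) hgn (by simpa using (ηt.pow 2).const_mul 2)
      ).mono_left Nat.hyperfilter_le_atTop)
  set K := 2 * Fintype.card κ * C ^ 2 * e.D.F.μ.real univ
  have K0 : 0 ≤ K := by positivity
  have k4 : ∀ n, |lb (d n).1 (d n).2.2.2 - L (v' n)| ≤ η n ^ 2 + η n + η n * K * 4 := fun n => by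
    obtain ⟨l1, -, l2⟩ := hD e hg.ok _ _ isOpen_Ioo (h3 n)
    have m : ∀ p ∈ Icc (0 : ℝ) 1, (d n).2.2.2 + p - 1 / 2 ∈ Ioo (d n).2.1 (d n).2.2.1 :=
      fun p hp => h2 n ⟨by linarith [hp.1], by linarith [hp.2]⟩
    rw [hi _ _ (hv n) (k2 n)]
    refine av_le (l1.continuousOn.comp (by fun_prop) m) fun p hp => (osc l1 (A := 1 + (η n)⁻¹)
      (B := η n * K) (fun s hs => ?_) (by have := η0 n; positivity) (mul_nonneg (η0 n).le K0)
      (fun _ => gn_nonneg hg.w.le _) (sq_nonneg _) (h6 n) (m p hp) (hs n (ht n))).trans ?_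
    · rw [(l2 s hs fun y => (h4 n (y, s) ⟨trivial, hs⟩).1).deriv]
      have := ip_abs hg.ok (adm_sl isOpen_Ioo (h3 n) hs) (η0 n) fun k y =>
        (PiLp.norm_apply_le _ (none, some k)).trans (h4 n (y, s) ⟨trivial, hs⟩).2
      refine (abs_add_le _ _).trans ?_
      rw [abs_neg, abs_of_nonneg (gn_nonneg hg.w.le _)]
      linarith
    · have : (1 + (η n)⁻¹) * η n ^ 2 = η n ^ 2 + η n := by have := η0 n; field_simp
      rw [this]
      have := mul_nonneg (η0 n).le K0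
      gcongr
      exact h1 n
  have k5 : Tendsto (fun n => lb (d n).1 (d n).2.2.2 - L (v' n)) atTop (𝓝 0) :=
    squeeze_zero_norm k4 (by simpa using ((ηt.pow 2).add ηt).add ((ηt.mul_const K).mul_const 4))
  have k6 := hg.ok.S.isClosed.mem_of_tendsto
    ((k5.mono_left Nat.hyperfilter_le_atTop).add k3) (.of_forall fun n => by simpa using hc n)
  obtain ⟨o, ho⟩ := hg.all v₀ k1
  rw [zero_add, hi _ _ (hg.crit o).1 ho] at k6
  exact hg.S o k6

/-- the gap without the form of the terms -/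
theorem gapG (hD : DlStmt κ lam ν) (hP : PsyStmt κ lam ν) (e : En3 κ lam ν) (g : e.Gen) (hg : g.OK)
    (hi : e.Inv) (C : ℝ) : ∃ ε > 0, ∀ c s, e.cyl.AdmOn c (univ ×ˢ win s) →
      (∀ x ∈ univ ×ˢ Ioo (s - 3 / 4) (s + 3 / 4),
        e.cyl.eD c x = e.b (nm (sl c x.2)) • e.m.ρ none x.1 (c.Φ x) ∧
        ‖e.cyl.eC c x + deriv e.f (hol (sl c x.2)) • e.ζ x.1‖ ≤ C) →
      Sup c (win s) C → lb c s ∈ e.S → ENNReal.ofReal ε ≤ en c (Ioo (s - 3 / 4) (s + 3 / 4)) := by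
  obtain ⟨ε, h0, h⟩ := gap0 hD hP hg hi C
  refine ⟨ε, h0, fun c s h1 h2 h3 h4 => not_lt.1 fun k => ?_⟩
  have m : univ ×ˢ Ioo (s - 3 / 4) (s + 3 / 4) ⊆ (univ : Set e.Y.M) ×ˢ win s :=
    prod_mono_right (Ioo_subset_Ioo (by linarith) (by linarith))
  exact h c _ _ s (by linarith) (Icc_subset_Ioo (by linarith) (by linarith))
    (Sep15.S.admOn_mono h1 m) h2 (fun x hx => h3 x (m hx)) k.le h4

variable {W : Type} {T : W → Option e.YT} {q : W →₀ ℝ} {c : e.ZC} {a b C : ℝ} {k : ℕ}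

theorem loc_adm (h : Loc T q c (some a) (some b)) :
    e.cyl.AdmOn c (univ ×ˢ Ioo (a - 1) (b + 1)) := jv_eq (a - 1) (b + 1) ▸ h.adm

theorem loc_alm (hs : Sml T q k C) (h : Loc T q c (some a) (some b)) : Alm c (Ioo a b) C :=
  fun x hx => let h := h.eq x (jv_eq a b ▸ hx)
    ⟨h.1, by rw [h.2]; simpa [pt] using tau_le hs c x⟩

/-- the field `gap` of `WinStmt` -/
theorem gap (hD : DlStmt κ lam ν) (hP : PsyStmt κ lam ν) (e : En3 κ lam ν) (g : e.Gen) (hg : g.OK)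
    (hi : e.Inv) (C : ℝ) : ∃ ε > 0, ∀ (W : Type) (T : W → Option e.YT) q c s, Sml T q 4 C →
      Loc T q c (some (s - 3 / 4)) (some (s + 3 / 4)) → Sup c (win s) C → lb c s ∈ e.S →
      ENNReal.ofReal ε ≤ en c (Ioo (s - 3 / 4) (s + 3 / 4)) :=
  let ⟨ε, h0, h⟩ := gapG hD hP e g hg hi C
  ⟨ε, h0, fun _ _ _ c s h1 h2 => h c s (Sep15.S.admOn_mono (loc_adm h2)
    (prod_mono_right (Ioo_subset_Ioo (by linarith) (by linarith)))) (loc_alm h1 h2)⟩

end Crest.Agent.X212.Win45
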