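import Crest.Agent.X212.Win45.Jet

/-!
# X212, SW-WIN (helper45), part 3: slices, the flow equations, limits on the cross-section
-/

set_option autoImplicit false
set_option linter.unusedSectionVars false
noncomputable section
open scoped Manifold ContDiff Topology InnerProductSpace
open MeasureTheory Set Function Filter

namespace Crest.Agent.X212.Win45
open An Sob92 Cyf70 Neck67 Cmp73 Bki64 Wz78
open Sw (Bg F2 En3 Gau GauOn)
open Sw.En3
open Nd18 (Jv ca)

variable {κ lam ν : Type} [Fintype κ] [Fintype lam] [Fintype ν] [DecidableEq ν]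
  {e : En3 κ lam ν} {c : e.ZC} {J : Set ℝ} {t : ℝ} {v v' : e.YC} {y : e.Y.M}
  {N : Type} [NormedAddCommGroup N] [NormedSpace ℝ N]

theorem jv_eq (a b : ℝ) : Jv (some a) (some b) = Ioo a b := by ext; simp [Jv]

/-- the frame of the cross-section -/
abbrev FY (e : En3 κ lam ν) : Pre e.Y.I e.Y.M κ := e.D.F.toPre

/-- the frame of the cylinder -/
abbrev FZ (e : En3 κ lam ν) : Pre (IC e.Y.I) (e.Y.M × ℝ) (Option κ) := cylP (FY e)

theorem at_of {f : e.Y.M × ℝ → N} (hJ : IsOpen J)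
    (h : ContMDiffOn (IC e.Y.I) 𝓘(ℝ, N) ∞ f (univ ×ˢ J)) (ht : t ∈ J) (y : e.Y.M) :
    SA (IC e.Y.I) f (y, t) := h.contMDiffAt ((isOpen_univ.prod hJ).mem_nhds ⟨trivial, ht⟩)

theorem sm_sl {f : e.Y.M × ℝ → N} (h : ∀ y, SA (IC e.Y.I) f (y, t)) : Sm e.Y.I fun y => f (y, t) :=
  fun y => (h y).comp y (contMDiffAt_id.prodMk contMDiffAt_const)

theorem der_at {f : e.Y.M × ℝ → N} (h : SA (IC e.Y.I) f (y, t)) :
    HasDerivAt (fun s => f (y, s)) ((FZ e).D none f (y, t)) t :=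
  D_none_at (FY e) h.md ▸ (diff_slice_snd h.md).hasDerivAt

theorem pa_at (hJ : e.cyl.AdmOn c (univ ×ˢ J)) (ht : t ∈ J) (k : κ) (y : e.Y.M) :
    ∑ j, e.D.F.P k j y * c.a (some j) (y, t) = c.a (some k) (y, t) := by
  have := hJ.pa (some k) (y, t) ⟨trivial, ht⟩
  rwa [Fintype.sum_option, show e.cyl.B.P (some k) none (y, t) = 0 from rfl, zero_mul,
    zero_add] at this

theorem adm_fz (ha : ∀ k, Sm e.Y.I (v.a k)) (hΦ : Sm e.Y.I v.Φ)
    (pa : ∀ k y, ∑ j, e.D.F.P k j y * v.a j y = v.a k y)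
    (pΦ : ∀ y, e.cyl.pp (y, 0) (v.Φ y) = v.Φ y) : e.cyl.Adm (fz v) := by
  refine ⟨fun i => ?_, sm_fst hΦ, fun i x => ?_, fun x => pΦ x.1⟩
  · cases i
    exacts [contMDiff_const, sm_fst (ha _)]
  · rw [Fintype.sum_option]
    cases i with
    | none => simp [fz, ca, En3.cyl, Nd18.YD.B, Cyf70.cP]
    | some k => exact (congrArg (· + _) (zero_mul _)).trans ((zero_add _).trans (pa k x.1))

theorem adm_sl (hJ : IsOpen J) (h : e.cyl.AdmOn c (univ ×ˢ J)) (ht : t ∈ J) :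
    e.cyl.Adm (fz (sl c t)) :=
  adm_fz (fun _ => sm_sl (at_of hJ (h.sa _) ht)) (sm_sl (at_of hJ h.sΦ ht)) (pa_at h ht)
    fun y => h.pΦ (y, t) ⟨trivial, ht⟩

theorem sm_a (h : e.cyl.Adm (fz v)) (k : κ) : Sm e.Y.I (v.a k) := sm_slice_fst (h.sa (some k)) 0

theorem sm_P (h : e.cyl.Adm (fz v)) : Sm e.Y.I v.Φ := sm_slice_fst h.sΦ 0

theorem _root_.Crest.Agent.X212.Sw.Gau.un {X : M.Mf 4} {u : X.M → ℂ} (h : Gau X.I u) (x : X.M) :
    Un X.I u x := ⟨h.1 x, .of_forall h.2⟩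

theorem un3 {u : e.Y.M → ℂ} (h : Gau e.Y.I u) (y : e.Y.M) : Un e.Y.I u y := ⟨h.1 y, .of_forall h.2⟩

theorem un_fst {u : e.Y.M → ℂ} (h : Gau e.Y.I u) (x : e.Y.M × ℝ) :
    Un (IC e.Y.I) (fun x => u x.1) x := ⟨sm_fst h.1 x, .of_forall fun x => h.2 x.1⟩

theorem lg_sl {u : e.Y.M × ℝ → ℂ} (h : SA (IC e.Y.I) u (y, t)) (k : κ) :
    lg (FZ e) (some k) u (y, t) = lg (FY e) k (fun y => u (y, t)) y := by
  rw [lg, D_some_at _ h.md]; rfl

theorem act3 {u : e.Y.M → ℂ} (hu : Gau e.Y.I u) (h : fz v' = e.cyl.act (fun x => u x.1) (fz v)) :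
    (∀ k y, v'.a k y = v.a k y - lg (FY e) k u y) ∧ ∀ y, v'.Φ y = cs e.m.J (u y) (v.Φ y) :=
  ⟨fun k y => (congrArg (fun c : e.ZC => c.a (some k) (y, 0)) h).trans
      (congrArg (_ - ·) (lg_sl (sm_fst hu.1 _) k)),
    fun y => congrArg (fun c : e.ZC => c.Φ (y, 0)) h⟩

theorem fc_eqv (he : e.OK) (hv : e.cyl.Adm (fz v)) (h : Eqv v v') (x : e.Y.M × ℝ) :
    e.cyl.fc (fz v') x = e.cyl.fc (fz v) x := by
  obtain ⟨u, hu, h⟩ := h
  rw [h, fc_act he.cyl (fun i => hv.sa i x) (un_fst hu x)]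

/-! ### the flow equations -/

theorem D_fz {f : e.Y.M × ℝ → N} (h : ∀ y, SA (IC e.Y.I) f (y, t)) (k : κ) (s : ℝ) :
    (FZ e).D (some k) (fun x => f (x.1, t)) (y, s) = (FZ e).D (some k) f (y, t) := by
  rw [D_some_fst _ (sm_sl h), D_some_at _ (h y).md]

theorem D_fz0 {f : e.Y.M × ℝ → N} (h : ∀ y, SA (IC e.Y.I) f (y, t)) (x : e.Y.M × ℝ) :
    (FZ e).D none (fun x => f (x.1, t)) x = 0 := congrFun (D_none_fst _ (sm_sl h)) x

theorem fc0 (he : e.OK) (s : Option κ × Option κ) :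
    e.cyl.fc ⟨0, 0⟩ (y, t) s = e.cyl.fc ⟨0, 0⟩ (y, 0) s := by
  have h : ∀ i j s, dv (IC e.Y.I) (e.cyl.F.e i) (e.cyl.A j) (y, s) =
      dv (IC e.Y.I) (e.cyl.F.e i) (e.cyl.A j) (y, 0) := fun i j s => by
    have h1 : e.cyl.A j = fun x => e.cyl.A j (x.1, 0) := by cases j <;> rfl
    have h2 := fun y => he.cyl.cc.sm j (y, 0)
    rw [h1]
    cases i
    exacts [(D_fz0 h2 _).trans (D_fz0 h2 _).symm, (D_fz h2 _ _).trans (D_fz h2 _ _).symm]
  have h1 : ∀ i, e.cyl.A i (y, t) = e.cyl.A i (y, 0) := fun i => by cases i <;> rfl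
  have h2 : ∀ i j k, e.cyl.F.c i j k (y, t) = e.cyl.F.c i j k (y, 0) := fun i j k => by
    cases i <;> cases j <;> cases k <;> rfl
  have h3 : e.cyl.W ⟨0, 0⟩ = e.cyl.A := by funext i x; simp [Bg.W]
  simp only [Bg.fc, h3, curv, h _ _ t, h1, h2]
  rfl

theorem d1_none {x : e.Y.M × ℝ} (a : Option κ → e.Y.M × ℝ → ℝ) (j : κ) :
    d1 (IC e.Y.I) e.cyl.F.e e.cyl.F.c a none (some j) x =
      (FZ e).D none (a (some j)) x - (FZ e).D (some j) (a none) x :=
  sub_eq_self.2 (Finset.sum_eq_zero fun k _ => by cases k <;> exact zero_smul _ _)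

variable (he : e.OK) (hJ : IsOpen J) (h : e.cyl.AdmOn c (univ ×ˢ J)) (ht : t ∈ J)
include he hJ h ht

theorem flow_C (y : e.Y.M) (k : κ) : e.cyl.eC c (y, t) (none, some k) =
    e.cyl.eC (fz (sl c t)) (y, 0) (none, some k) +
      ((FZ e).D none (c.a (some k)) (y, t) - (FZ e).D (some k) (c.a none) (y, t)) / 2 := by
  have sa := fun i => at_of hJ (h.sa i) ht
  set β := fun k => (FZ e).D none (c.a (some k)) (y, t) - (FZ e).D (some k) (c.a none) (y, t)
  have hz : ∀ i, (FZ e).D i (fun _ => (0 : ℝ)) (y, 0) = 0 := fun i => congrFun (dv_const _) _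
  have d : ∀ i j, e.cyl.fc c (y, t) (i, j) = e.cyl.fc (fz (sl c t)) (y, 0) (i, j) +
      (i.elim (j.elim 0 β) fun i => j.elim (-β i) fun _ => 0) := fun i j => by
    rw [fc_eq he.cyl fun i => sa i y, fc_eq he.cyl fun i => (adm_sl hJ h ht).sa i _, fc0 he,
      add_assoc, add_right_inj]
    have c0 : ∀ i j (x : e.Y.M × ℝ) (a : Option κ → ℝ), i = none ∨ j = none →
        ∑ k, e.cyl.F.c i j k x • a k = 0 := fun i j x a hh => Finset.sum_eq_zero fun k _ => by
      rcases hh with rfl | rfl <;> cases k <;> first | exact zero_smul _ _ | skip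
      all_goals cases i <;> exact zero_smul _ _
    cases i <;> cases j
    · simp only [d1, c0 _ _ _ _ (.inl rfl), sub_self, Option.elim, add_zero]
    · rw [d1_none, d1_none]
      exact (congrArg (· + _) (sub_eq_zero.2 ((D_fz0 (sa _) _).trans (hz _).symm))).trans
        (zero_add _) |>.symm
    · simp only [d1, c0 _ _ _ _ (.inr rfl), sub_zero]
      exact ((congrArg (· + _) (sub_eq_zero.2 ((hz _).trans (D_fz0 (sa _) _).symm))).trans
        ((zero_add _).trans (neg_sub _ _))).symm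
    · rw [Option.elim_some, Option.elim_some, add_zero, d1, d1, Fintype.sum_option,
        Fintype.sum_option]
      exact congrArg₂ (· - ·) (congrArg₂ (· - ·) (D_fz (sa _) _ _).symm (D_fz (sa _) _ _).symm)
        (congrArg (· + _) ((zero_smul _ _).trans (zero_smul _ _).symm))
  have o1 : ∀ j, e.cyl.B.o none (some k) none j (y, 0) = 0 := fun j => by
    have h1 := he.cyl.B.o12 none (some k) none j (y, 0)
    have h2 := he.cyl.B.o23 (some k) none none j (y, 0)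
    linarith
  have o2 : ∀ j, e.cyl.B.o none (some k) j none (y, 0) = 0 := fun j => by
    rw [he.cyl.B.o34, o1, neg_zero]
  have hβ : ∑ j, e.D.F.P k j y * β j = β k := by
    have h1 := (frm e.D.Z).projD (some k) (c.a none) (y, t)
    rw [Fintype.sum_option] at h1
    have h2 : ∑ j, e.D.F.P k j y * (FZ e).D (some j) (c.a none) (y, t) =
        (FZ e).D (some k) (c.a none) (y, t) :=
      ((congrArg (· + _) (zero_smul _ _)).trans (zero_add _)).symm.trans h1
    have h3 := fun j => der_at (sa (some j) y)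
    have h4 := (HasDerivAt.fun_sum fun j (_ : j ∈ Finset.univ) =>
      (h3 j).const_mul (e.D.F.P k j y)).unique ((h3 k).congr_of_eventuallyEq
        ((hJ.eventually_mem ht).mono fun s hs => pa_at h hs k y))
    simp only [β, mul_sub, Finset.sum_sub_distrib, h2, h4]
  have hp : ∀ η : F2 κ, e.cyl.p2 (y, t) η = e.cyl.p2 (y, 0) η := fun η => by
    ext ⟨i, j⟩
    rw [p2_apply, p2_apply]
    refine Finset.sum_congr rfl fun ⟨i', j'⟩ _ => ?_
    cases i <;> cases j <;> cases i' <;> cases j' <;> rfl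
  simp only [Bg.eC, hp, PiLp.sub_apply, p2_apply, Fintype.sum_prod_type, d]
  have : ∑ i, ∑ j, e.cyl.B.sd (y, 0) (none, some k) (i, j) *
      (i.elim (j.elim 0 β) fun i => j.elim (-β i) fun _ => 0) = (∑ j, e.D.F.P k j y * β j) / 2 := by
    simp only [Fintype.sum_option, Option.elim, Base.sd, Base.a2, Base.st, o1, o2, mul_zero,
      Finset.sum_const_zero, Finset.sum_div, zero_add, add_zero, ← Finset.sum_add_distrib]
    refine Finset.sum_congr rfl fun j _ => ?_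
    simp only [En3.cyl, Nd18.YD.B, Cyf70.cP]
    ring
  rw [show _ - _ = β k from rfl, ← hβ, ← this]
  simp only [add_sub_right_comm _ _ ((e.cyl.w • _ : F2 κ) _), mul_add, Finset.sum_add_distrib]
  exact add_sub_right_comm _ _ _

theorem flow_D (y : e.Y.M) : e.cyl.eD c (y, t) = e.m.ρ none y ((FZ e).D none c.Φ (y, t) +
    c.a none (y, t) • e.cyl.jp (y, t) (c.Φ (y, t))) + e.cyl.eD (fz (sl c t)) (y, 0) := by
  have sΦ := at_of hJ h.sΦ ht
  have h1 : dv (IC e.Y.I) (e.cyl.F.e none) (fz (sl c t)).Φ (y, 0) = 0 := D_fz0 sΦ _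
  have h2 : ∀ k, dv (IC e.Y.I) (e.cyl.F.e (some k)) (fz (sl c t)).Φ (y, 0) =
      dv (IC e.Y.I) (e.cyl.F.e (some k)) c.Φ (y, t) := fun k => D_fz sΦ k 0
  have h3 : e.cyl.W (fz (sl c t)) none (y, 0) = 0 := (zero_add _).trans (zero_smul _ _)
  have h4 : e.cyl.W c none (y, t) = c.a none (y, t) • e.cyl.jp (y, t) := zero_add _
  simp only [Bg.eD, dir, nab, Fintype.sum_option, h1, h2, h3, h4, zero_apply,
    add_zero, map_zero, zero_add, add_assoc]
  rfl

/-- solutions in temporal gauge are flow lines -/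
theorem flow (h0 : ∀ x ∈ univ ×ˢ J, c.a none x = 0) (y : e.Y.M)
    (hD : e.cyl.eD c (y, t) = e.b (nm (sl c t)) • e.m.ρ none y (c.Φ (y, t)))
    (hC : e.cyl.eC c (y, t) = -deriv e.f (hol (sl c t)) • e.ζ y) :
    (∀ k, (gr (sl c t)).a k y = -(FZ e).D none (c.a (some k)) (y, t)) ∧
      (gr (sl c t)).Φ y = -(FZ e).D none c.Φ (y, t) := by
  have hO := (isOpen_univ.prod hJ).eventually_mem (x := (y, t)) ⟨trivial, ht⟩
  refine ⟨fun k => ?_, ?_⟩
  · have h1 := flow_C he hJ h ht y k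
    have h2 : (FZ e).D (some k) (c.a none) (y, t) = 0 :=
      (dv_congr (hO.mono h0)).trans (congrFun (dv_const _) _)
    simp only [hC, h2, PiLp.smul_apply, smul_eq_mul] at h1
    simp only [gr, PiLp.add_apply, PiLp.smul_apply, smul_eq_mul]
    linarith
  · have h1 := flow_D he hJ h ht y
    rw [hD, h0 _ hO.self_of_nhds, zero_smul, add_zero, ← sub_eq_iff_eq_add'] at h1
    have h2 : ∀ w, e.m.ρ none y (e.m.ρ none y w) = -e.m.p y w := fun w => by
      have := congrArg (fun T : En ν => T w) ((he.cyl.m.cl (y, 0) trivial).rel none none)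
      change _ + _ = (-2 * 1 : ℝ) • e.m.p y w at this
      change e.m.ρ none y (e.m.ρ none y w) + e.m.ρ none y (e.m.ρ none y w) = _ at this
      linear_combination (norm := module) (1 / 2 : ℝ) • this
    have h3 : e.m.p y ((FZ e).D none c.Φ (y, t)) = (FZ e).D none c.Φ (y, t) := by
      have h3 := der_at (at_of hJ h.sΦ ht y)
      exact ((e.m.p y).hasFDerivAt.comp_hasDerivAt t h3).unique (h3.congr_of_eventuallyEq
        ((hJ.eventually_mem ht).mono fun s hs => p_of he.cyl (h.pΦ (y, s) ⟨trivial, hs⟩)))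
    have h4 : e.m.p y (c.Φ (y, t)) = c.Φ (y, t) := p_of he.cyl (h.pΦ (y, t) ⟨trivial, ht⟩)
    simp only [gr, ← h1, map_sub, map_smul, h2, h3, h4]
    change _ - _ • c.Φ (y, t) = _
    module

end Crest.Agent.X212.Win45
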