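import Crest.Agent.X212.Win45.Gap
import Crest.Agent.X212.Win39.Lv

/-!
# X212, SW-WIN (helper45), part 5: smooth limits on the cross-section
-/

set_option autoImplicit false
set_option linter.unusedSectionVars false
noncomputable section
open scoped Manifold ContDiff Topology InnerProductSpace
open MeasureTheory Set Function Filter

namespace Crest.Agent.X212.Win45
open An Sob92 Cyf70 Neck67 Cmp73 Bki64 Wz78 Sw Sw.En3
open Sep15.S (integrable_gn gn_nonneg sm_gr_a sm_gr_Φ)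

variable {κ lam ν : Type} [Fintype κ] [Fintype lam] [Fintype ν] [DecidableEq ν]
  {e : En3 κ lam ν} {v : e.YC} {α : Type} {l : Filter α} {k : ℕ}
  {N : Type} [NormedAddCommGroup N] [NormedSpace ℝ N]
  {V : Type} [NormedAddCommGroup V] [InnerProductSpace ℝ V]

/-- the density of `ip u u` -/
def dens (u : e.YC) (y : e.Y.M) : ℝ := 2 * ∑ k, u.a k y * u.a k y + e.w * ⟪u.Φ y, u.Φ y⟫_ℝ

theorem dens_le (hw : 0 ≤ e.w) (u : e.YC) (y : e.Y.M) :
    (∀ k, 1 * ‖u.a k y‖ ^ 2 ≤ dens u y) ∧ e.w * ‖u.Φ y‖ ^ 2 ≤ dens u y := by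
  have h1 : 0 ≤ e.w * ‖u.Φ y‖ ^ 2 := by positivity
  have h2 := Finset.sum_nonneg fun k (_ : k ∈ Finset.univ) => mul_self_nonneg (u.a k y)
  rw [dens, real_inner_self_eq_norm_sq]
  refine ⟨fun k => ?_, by linarith⟩
  have := Finset.single_le_sum (fun k _ => mul_self_nonneg (u.a k y)) (Finset.mem_univ k)
  rw [Real.norm_eq_abs, sq_abs]
  nlinarith

theorem dens_nonneg (hw : 0 ≤ e.w) (u : e.YC) (y : e.Y.M) : 0 ≤ dens u y :=
  le_trans (by positivity) (dens_le hw u y).2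

theorem crit_of_gn (he : e.OK) (hw : 0 < e.w) (hv : e.cyl.Adm (fz v)) (h : gn v = 0) : Crit v := by
  have := Cht98.openPos (FY e)
  have h1 : ∀ y, dens (gr v) y = 0 := fun y => by_contra fun hy =>
    (Continuous.integral_pos_of_hasCompactSupport_nonneg_nonzero (μ := e.D.F.μ)
      ((continuous_const.mul (continuous_finsetSum _ fun k _ =>
        (sm_gr_a he hv k).continuous.mul (sm_gr_a he hv k).continuous)).add
        (continuous_const.mul ((sm_gr_Φ he hv).continuous.inner (sm_gr_Φ he hv).continuous)))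
      (.of_compactSpace _) (dens_nonneg hw.le (gr v)) hy).ne' h
  refine ⟨hv, fun k y => ?_, fun y => ?_⟩
  · have := (dens_le hw.le (gr v) y).1 k
    rw [h1, one_mul] at this
    exact norm_eq_zero.1 (pow_eq_zero_iff two_ne_zero |>.1 (this.antisymm (sq_nonneg _)))
  · have := (dens_le hw.le (gr v) y).2
    rw [h1] at this
    exact norm_eq_zero.1 (pow_eq_zero_iff two_ne_zero |>.1
      ((le_of_mul_le_mul_left (this.trans_eq (mul_zero _).symm) hw).antisymm (sq_nonneg _)))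

theorem l2_le (he : e.OK) (hv : e.cyl.Adm (fz v)) {r : ℝ} (hr : 0 < r) {f : e.Y.M → N}
    (h : ∀ y, r * ‖f y‖ ^ 2 ≤ dens (gr v) y) :
    ∫⁻ y, ‖f y‖ₑ ^ 2 ∂e.D.F.μ ≤ ENNReal.ofReal r⁻¹ * ENNReal.ofReal (gn v) := by
  rw [gn, ip, ofReal_integral_eq_lintegral_ofReal (integrable_gn he hv)
    (.of_forall (dens_nonneg he.cyl.w (gr v))), ← lintegral_const_mul' _ _ ENNReal.ofReal_ne_top]
  refine lintegral_mono fun y => ?_
  rw [← ofReal_norm, ← ENNReal.ofReal_pow (norm_nonneg _), ← ENNReal.ofReal_mul (inv_pos.2 hr).le]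
  exact ENNReal.ofReal_le_ofReal ((le_inv_mul_iff₀ hr).2 (h y))

/-- bounded in `C^k` on the cross-section -/
abbrev BY (e : En3 κ lam ν) (l : Filter α) (k : ℕ) (f : α → e.Y.M → N) : Prop :=
  BB (FY e) l (fun _ => univ) k f

/-- small in `C^k` on the cross-section -/
abbrev ZY (e : En3 κ lam ν) (l : Filter α) (k : ℕ) (f : α → e.Y.M → N) : Prop :=
  ZZ (FY e) l (fun _ => univ) k f

theorem nrm_of_by {f : α → e.Y.M → V} (h : BY e l k f) :
    ∃ B, ∀ᶠ n in l, e.D.F.nrm k (f n) ≤ B :=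
  let ⟨_, h⟩ := h
  ⟨_, h.mono fun n h => by
    simpa using nrm_mul_on' le_rfl (B := (ContinuousLinearMap.lsmul ℝ ℝ).flip)
      ((ContinuousLinearMap.opNorm_flip _).trans_le ContinuousLinearMap.opNorm_lsmul_le) h.2
      (u := fun _ => (1 : ℝ)) contMDiff_const (.of_compactSpace _) (subset_univ _)⟩

theorem by_of_nrm {f : α → e.Y.M → V} (hs : ∀ n, Sm e.Y.I (f n)) {B : ℝ}
    (h : ∀ᶠ n in l, e.D.F.nrm (k + 4) (f n) ≤ B) : BY e l k f := by
  obtain ⟨C, hC⟩ := Cht98.exists_tame e.D.F (by rw [e.Y.dim]; norm_num)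
  exact ⟨√|C 0| * B, h.mono fun n h => ⟨isOpen_univ, (Lb.of_CB (hs n)
    ((Sob92.Sup.of_tame hC).CB k (hs n) (.of_compactSpace _))).mono
      (mul_le_mul_of_nonneg_left h (Real.sqrt_nonneg _))⟩⟩

theorem by_fc (he : e.OK) {w : α → e.YC} (hw : ∀ n, e.cyl.Adm (fz (w n)))
    (h : ∀ i, BY e l (k + 1) fun n => (w n).a i) :
    BY e l k fun n y => e.cyl.fc (fz (w n)) (y, 0) := by
  have o : ∀ᶠ n in l, IsOpen ((fun _ : α => (wn 0 1 : Set (e.Y.M × ℝ))) n) := .of_forall fun _ => wn_op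
  have h1 : ∀ i, BB (FZ e) l (fun _ => wn 0 1) (k + 1) fun n => (fz (w n)).a i := fun i => by
    cases i
    exacts [BB.const o 0, bb_fst o (h _)]
  obtain ⟨C, hC⟩ := he.cyl.tame
  refine bb_pi (.of_forall fun _ => isOpen_univ) fun s => bb_slc (s := fun _ => 0) (r := 1)
    (t := fun _ => 0) (f := fun n x => e.cyl.fc (fz (w n)) x s) (((BB.fst o k (sm_slice_fst
      (sm_fc he.cyl (c := ⟨0, 0⟩) (fun _ => contMDiff_const) s) 0)).add ((((h1 s.2).D s.1).sub
        ((h1 s.1).D s.2)).sub (BB.sum o fun j => (BB.of_CB o ⟨C, hC.c s.1 s.2 j⟩).smul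
          ((h1 j).of_le k.le_succ)))).congr (.of_forall fun n x _ => ?_)) fun _ => by norm_num
  rw [fc_eq he.cyl fun i => (hw n).sa i x, fc0 he]
  rfl

variable (e) in
/-- one gauge for all orders; invariance -/
structure Cg : Prop where
  wl : ∃ C : ℕ → ℝ, ∀ v : e.YC, e.cyl.Adm (fz v) → ∃ v', Eqv v v' ∧ ∀ k i,
    e.D.F.nrm (k + 1) (v'.a i) ≤ C k * (1 + e.D.F.nrm k fun y => e.cyl.fc (fz v) (y, 0))
  adm : ∀ v v' : e.YC, e.cyl.Adm (fz v) → Eqv v v' → e.cyl.Adm (fz v')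
  gn : ∀ v v' : e.YC, e.cyl.Adm (fz v) → Eqv v v' → gn v' = gn v

/-- **smooth limits** of configurations with small gradient -/
theorem lim3 (he : e.OK) (hw : 0 < e.w) (hC : Cg e) {𝒰 : Ultrafilter α} {v : α → e.YC}
    (hv : ∀ n, e.cyl.Adm (fz (v n))) (hg : Tendsto (fun n => gn (v n)) 𝒰 (𝓝 0))
    (hb : ∀ j, ∃ w : α → e.YC, (∀ n, Eqv (v n) (w n)) ∧ (∀ i, BY e 𝒰 j fun n => (w n).a i) ∧
      BY e 𝒰 j fun n => (w n).Φ) :
    ∃ (v' : α → e.YC) (v₀ : e.YC), (∀ n, Eqv (v n) (v' n)) ∧ Crit v₀ ∧ ∀ j,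
      (∀ i, BY e 𝒰 j fun n => (v' n).a i) ∧ (∀ i, ZY e 𝒰 j fun n y => (v' n).a i y - v₀.a i y) ∧
      ZY e 𝒰 j fun n y => (v' n).Φ y - v₀.Φ y := by
  obtain ⟨C, h⟩ := hC.wl
  choose v' h1 h2 using fun n => h _ (hv n)
  have hv' := fun n => hC.adm _ _ (hv n) (h1 n)
  have ba : ∀ j i, BY e 𝒰 j fun n => (v' n).a i := fun j i => by
    obtain ⟨w, k1, k2, -⟩ := hb (j + 3 + 1)
    obtain ⟨B, hB⟩ := nrm_of_by (by_fc he (fun n => hC.adm _ _ (hv n) (k1 n)) k2)
    refine by_of_nrm (fun n => sm_a (hv' n) i) (B := |C (j + 3)| * (1 + B))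
      (hB.mono fun n hn => (h2 n (j + 3) i).trans ?_)
    simp only [fc_eqv he (hv n) (k1 n)] at hn
    have := nrm_nonneg (F := FY e) (j + 3) fun y => e.cyl.fc (fz (v n)) (y, 0)
    exact (mul_le_mul_of_nonneg_right (le_abs_self _) (by positivity)).trans (by gcongr)
  have bP : ∀ j, BY e 𝒰 j fun n => (v' n).Φ := fun j => by
    obtain ⟨w, k1, k2, k3⟩ := hb (j + 1)
    choose u hu eu using k1
    choose u' hu' eu' using h1
    refine ((bb_tr he.cyl.m.Jsq (fun n y _ => un3 (hu n) y) (fun n y _ => un3 (hu' n) y)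
      (a := fun i n => (v n).a i) (fun i => ((k2 i).of_le j.le_succ).congr (.of_forall fun n y _ =>
        ((act3 (hu n) (eu n)).1 i y).symm)) (fun i => (ba j i).congr (.of_forall fun n y _ =>
        ((act3 (hu' n) (eu' n)).1 i y).symm)) (k3.congr (.of_forall fun n y _ =>
        ((act3 (hu n) (eu n)).2 y).symm))).of_le j.le_succ).congr (.of_forall fun n y _ =>
        (act3 (hu' n) (eu' n)).2 y)
  choose a₀ ca using fun i => MBOn.exists_cv fun j y (hy : y ∈ univ) => (ba j i).mb hy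
  obtain ⟨Φ₀, cP⟩ := MBOn.exists_cv fun j y (hy : y ∈ univ) => (bP j).mb hy
  have zz : ∀ {V : Type} [NormedAddCommGroup V] [NormedSpace ℝ V] [FiniteDimensional ℝ V]
      {f : α → e.Y.M → V} {g : e.Y.M → V}, Cv e.Y.I 𝒰 univ f g → ∀ j,
      ZY e 𝒰 j fun n y => f n y - g y := fun h j =>
    ZZ.of_cv isOpen_univ isCompact_univ Subset.rfl isOpen_univ Subset.rfl j
      ((h.sub (Cv.fixed' fun y => h.smoothAt isOpen_univ (mem_univ y))).congr' isOpen_univ
        (.of_forall fun _ _ _ => rfl) fun _ _ => (sub_self _).symm)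
  have sa := fun i y => (ca i).smoothAt isOpen_univ (mem_univ y)
  have sP := fun y => cP.smoothAt isOpen_univ (mem_univ y)
  have h0 : e.cyl.Adm (fz ⟨a₀, Φ₀⟩) := adm_fz sa sP
    (fun k y => tendsto_nhds_unique (tendsto_finsetSum _ fun j _ =>
      ((ca j).pt y trivial).const_mul _) (((ca k).pt y trivial).congr fun n =>
        (pa_at (J := univ) ⟨fun i => ((hv' n).sa i).contMDiffOn, (hv' n).sΦ.contMDiffOn,
          fun i x _ => (hv' n).pa i x, fun x _ => (hv' n).pΦ x⟩ (mem_univ 0) k y).symm))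
    fun y => tendsto_nhds_unique (((e.cyl.pp (y, 0)).continuous.tendsto _).comp (cP.pt y trivial))
      ((cP.pt y trivial).congr fun n => ((hv' n).pΦ (y, 0)).symm)
  refine ⟨v', ⟨a₀, Φ₀⟩, h1, crit_of_gn he hw h0 (tendsto_nhds_unique ?_ hg), fun j =>
    ⟨ba j, fun i => zz (ca i) j, zz cP j⟩⟩
  refine Metric.tendsto_nhds.2 fun ε hε => ?_
  obtain ⟨η, hη, k⟩ := Win39.cont1 he h0 (half_pos hε)
  filter_upwards [eventually_all.2 fun i => zz (ca i) 1 η hη, zz cP 1 η hη] with n k1 k2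
  rw [← hC.gn _ _ (hv n) (h1 n)]
  refine (k _ (hv' n) fun y => max_le ((pi_norm_le_iff_of_nonneg hη.le).2 fun i =>
    (k1 i).2.le (mem_univ y)) (max_le ((pi_norm_le_iff_of_nonneg hη.le).2 fun i =>
      (pi_norm_le_iff_of_nonneg hη.le).2 fun j => ?_) (max_le (k2.2.le (mem_univ y))
        ((pi_norm_le_iff_of_nonneg hη.le).2 fun i => ?_)))).2.2.trans_lt (half_lt_self hε)
  · exact (congrArg norm (dv_sub' (sm_a (hv' n) j y) (sa j y))).symm.trans_le
      (((k1 j).2.D i).le (mem_univ y))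
  · exact (congrArg norm (dv_sub' (sm_P (hv' n) y) (sP y))).symm.trans_le
      ((k2.2.D i).le (mem_univ y))

end Crest.Agent.X212.Win45
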