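import Crest.Agent.X212.Win45.Nr
import Crest.Agent.X212.Cyl58.PsW
import Crest.Agent.X212.Pb50.Main

/-!
# X212, SW-WIN (helper45, helper39): windows of small energy
-/

set_option autoImplicit false

namespace Crest.Agent.X212.Win45
open Sw

variable {κ lam ν : Type} [Fintype κ] [Fintype lam] [Fintype ν] [DecidableEq ν]

theorem cg {e : En3 κ lam ν} (he : e.OK) : Cg e :=
  ⟨Cyl58.wlU he, fun _ _ hv h => Cyl58.eqv_adm he hv h, fun _ _ hv h => Cyl58.eqv_gn he hv h⟩

/-- **SW-WIN** -/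
theorem winStmt (hD : DlStmt κ lam ν) (hP : PsyStmt κ lam ν) (hL : LocwStmt κ lam ν) :
    WinStmt κ lam ν :=
  ⟨fun e => nr (Pb50.pb _ _ _) hD hP hL e cg, gap hD hP, Win39.sep, Win39.lv (Pb50.pb _ _ _), Win39.rig⟩

end Crest.Agent.X212.Win45
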