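import Crest.Agent.X212.Win45.Gen
import Crest.Agent.X212.Sw.Cyl
import Crest.Agent.X212.Wz78.Hs
import Crest.Agent.X212.Wz78.Int
import Crest.Agent.X212.Eqv71.Alg

/-!
# X212, SW-WIN (helper45), part 2: jets, gauge transformations, slices, the flow equations
-/

set_option autoImplicit false
set_option linter.unusedSectionVars false
noncomputable section
open scoped Manifold ContDiff Topology InnerProductSpace
open MeasureTheory Set Function Filter

namespace Crest.Agent.X212.Win45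
open An Sob92 Cyf70 Neck67 Cmp73 Bki64 Wz78
open Sw (Bg F2 En3)

variable {κ lam ν : Type} [Fintype κ] [Fintype lam] [Fintype ν] [DecidableEq ν]

section bg
variable {E : Type} [NormedAddCommGroup E] [NormedSpace ℝ E] [FiniteDimensional ℝ E]
  [MeasurableSpace E] [BorelSpace E]
  {HM : Type} [TopologicalSpace HM] {I : ModelWithCorners ℝ E HM} [I.Boundaryless]
  {M : Type} [TopologicalSpace M] [ChartedSpace HM M] [IsManifold I ∞ M] [MeasurableSpace M]
  {ι : Type} [Fintype ι] {α : Type} {l : Filter α} {S : α → Set M} {k : ℕ} {x : M} {u v : M → ℂ}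

theorem Un.sD (F : Pre I M ι) (h : Un I u x) (i : ι) : SA I (F.D i u) x := dv_smoothAt (F.sm i x) h.1

theorem Un.slg (F : Pre I M ι) (h : Un I u x) (i : ι) : SA I (lg F i u) x :=
  Complex.imCLM.contMDiff.contMDiffAt.comp x (SA.mul h.st.1 (h.sD F i))

theorem D_lg (F : Pre I M ι) (h : Un I u x) (i j : ι) :
    F.D i (lg F j u) x = (star (u x) * F.D i (F.D j u) x).im := by
  refine (dv_clm Complex.imCLM (SA.mul h.st.1 (h.sD F j)).md).trans ?_
  have := D_mul F h.st.md (h.sD F j).md i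
  rw [D_star F h.md, h.D F i, h.D F j] at this
  rw [← F.D_def, this]
  simp
  ring

/-- logarithmic derivatives are closed -/
theorem d1_lg (F : Fr I M ι) (h : Un I u x) (i j : ι) :
    d1 I F.e F.c (fun i => lg F.toPre i u) i j x = 0 := by
  have := (frm F).brV i j h.1
  simp only [d1, ← F.D_def, D_lg F.toPre h] at this ⊢
  rw [← Complex.sub_im, ← mul_sub, this]
  simp [lg, Finset.mul_sum, mul_left_comm]

theorem bb_cs {F : Pre I M ι} (J : En ν) {g : α → M → ℂ} {f : α → M → Eu ν} (hg : BB F l S k g)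
    (hf : BB F l S k f) : BB F l S k fun n x => cs J (g n x) (f n x) :=
  ((hg.clm Complex.reCLM).smul hf).add ((hg.clm Complex.imCLM).smul (hf.clm J))

theorem zz_cs {F : Pre I M ι} (J : En ν) {g : α → M → ℂ} {f : α → M → Eu ν} (hg : BB F l S k g)
    (hf : ZZ F l S k f) : ZZ F l S k fun n x => cs J (g n x) (f n x) :=
  ((hg.clm Complex.reCLM).smulZ hf).add ((hg.clm Complex.imCLM).smulZ (hf.clm J))

/-- two gauges in which the form is bounded -/
theorem bb_tr {F : Pre I M ι} {J : En ν} (hJ : J * J = -1) {u v : α → M → ℂ}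
    (hu : ∀ n, ∀ x ∈ S n, Un I (u n) x) (hv : ∀ n, ∀ x ∈ S n, Un I (v n) x) {a : ι → α → M → ℝ}
    (h1 : ∀ i, BB F l S k fun n x => a i n x - lg F i (u n) x)
    (h2 : ∀ i, BB F l S k fun n x => a i n x - lg F i (v n) x) {f : α → M → Eu ν}
    (h : BB F l S (k + 1) fun n x => cs J (u n x) (f n x)) :
    BB F l S (k + 1) fun n x => cs J (v n x) (f n x) := by
  refine (bb_cs J (bb_un (g := fun n x => v n x * star (u n x)) h.op
    (.of_forall fun n x hx => (hv n x hx).mul (hu n x hx).st) fun i =>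
      ((h1 i).sub (h2 i)).congr (.of_forall fun n x hx => ?_)) h).congr
        (.of_forall fun n x hx => ?_)
  · rw [lg_mul F (hv n x hx) (hu n x hx).st, lg_star F (hu n x hx)]; ring
  · rw [Eqv71.cs_mul hJ, mul_assoc, st_mul (hu n x hx).2.self_of_nhds, mul_one]

theorem bb_pi {F : Pre I M ι} {β : Type} [Fintype β] (hS : ∀ᶠ n in l, IsOpen (S n))
    {f : α → M → Eu β} (h : ∀ s, BB F l S k fun n x => f n x s) : BB F l S k f := by
  classical
  exact (BB.sum hS fun s => (h s).smul (BB.const hS (EuclideanSpace.single s (1 : ℝ)))).congr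
    (.of_forall fun n x _ => (eu_sum _).symm)

theorem cv_int [CompactSpace M] [T2Space M] [BorelSpace M] [l.NeBot] (F : Pre I M ι)
    {f : α → M → ℝ} {g : M → ℝ} (h : Cv I l univ f g) :
    Tendsto (fun n => ∫ x, f n x ∂F.μ) l (𝓝 (∫ x, g x ∂F.μ)) := by
  have : IsFiniteMeasure F.μ := CompactSpace.isFiniteMeasure
  have hi : ∀ {f : M → ℝ}, (∀ x ∈ univ, ContMDiffAt I 𝓘(ℝ, ℝ) ∞ f x) → Integrable f F.μ := fun h =>
    (continuous_iff_continuousAt.2 fun x => (h x trivial).continuousAt).integrable_of_hasCompactSupport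
      (.of_compactSpace _)
  refine Metric.tendsto_nhds.2 fun ε hε => ?_
  have h0 : 0 ≤ F.μ.real univ := measureReal_nonneg
  filter_upwards [h.unif isOpen_univ isCompact_univ Subset.rfl (div_pos hε (by positivity :
    0 < F.μ.real univ + 1)), h.mb.smooth isCompact_univ Subset.rfl] with n h1 h2
  rw [dist_eq_norm, ← integral_sub (hi h2) (hi fun x hx => h.smoothAt isOpen_univ hx)]
  refine (norm_integral_le_of_norm_le_const (.of_forall fun x => (h1 x trivial).le)).trans_lt ?_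
  rw [div_mul_eq_mul_div, div_lt_iff₀ (by positivity)]
  nlinarith

variable {nc : ℕ} {b : Bg I M κ lam ν nc} {c : Sw.Cfg M κ ν} (hb : b.OK)
include hb

theorem p_of {w : Eu ν} (h : b.pp x w = w) : b.m.p x w = w := by
  have : b.m.p x * b.pp x = b.pp x := by
    simp only [Bg.pp, Bg.vol, mul_smul_comm, mul_sub, hb.m.pidem x trivial, Finset.mul_sum,
      ← mul_assoc, (hb.m.cl x trivial).pl]
  rw [← h]
  exact congrArg (fun T : En ν => T w) this

theorem s_jp (x : M) : SA I b.jp x := SA.mul contMDiffAt_const (hb.cc.sp x)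

theorem jp_nrm (x : M) : ⟪hsL (b.jp x), hsL (b.jp x)⟫_ℝ = 8 := by
  have h : Skw (b.jp x) := fun v w => by
    rw [Bg.jp, mul_apply_eq_comp, hb.m.Jsk, hb.m.psym x trivial, hb.m.Jp x trivial,
      mul_apply_eq_comp]
  rw [inner_hsL_skw h, Bg.jp, mul_assoc, ← mul_assoc (b.m.p x), ← hb.m.Jp x trivial, mul_assoc,
    hb.m.pidem x trivial, ← mul_assoc, hb.m.Jsq, neg_one_mul, map_neg, neg_neg, trE_eq,
    hb.m.prk x trivial]

theorem curv_W (ha : ∀ i, SA I (c.a i) x) (i j : Option κ) : curv I b.F.e b.F.c (b.W c) i j x =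
    curv I b.F.e b.F.c b.A i j x + d1 I b.F.e b.F.c c.a i j x • b.jp x :=
  curv_add_smul (fun i => hb.cc.sm i x) ha (s_jp hb x) (fun i => by
    have := dv_mul (e := b.F.e i) (f := fun _ => b.m.J) contMDiffAt_const (hb.cc.sp x)
    rw [nabE, show b.jp = fun y => b.m.J * b.m.p y from rfl, this, dv_const, Pi.zero_apply,
      zero_mul, zero_add, ← mul_assoc, ← hb.AJ, mul_assoc, mul_assoc, ← mul_sub, ← mul_add,
      hb.cc.par, mul_zero]) i j

theorem fc_eq (ha : ∀ i, SA I (c.a i) x) (s : Option κ × Option κ) :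
    b.fc c x s = b.fc ⟨0, 0⟩ x s + d1 I b.F.e b.F.c c.a s.1 s.2 x := by
  simp only [Bg.fc, curv_W hb ha, curv_W hb (c := ⟨0, 0⟩) fun _ => contMDiffAt_const, map_add,
    map_smul, inner_add_right, real_inner_smul_right, jp_nrm hb]
  simp [d1]
  ring

omit hb in
theorem d1_act (ha : ∀ i, SA I (c.a i) x) (h : Un I u x) (i j : Option κ) :
    d1 I b.F.e b.F.c (b.act u c).a i j x = d1 I b.F.e b.F.c c.a i j x := by
  have h1 := d1_lg b.F h i j
  have h2 : ∀ i, (b.act u c).a i = fun y => c.a i y - lg b.F.toPre i u y := fun _ => rfl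
  simp only [d1, h2, fun i j => dv_sub' (e := b.F.e i) (ha j) (h.slg b.F.toPre j), smul_sub,
    Finset.sum_sub_distrib] at h1 ⊢
  linarith

theorem fc_act (ha : ∀ i, SA I (c.a i) x) (h : Un I u x) : b.fc (b.act u c) x = b.fc c x := by
  ext s
  rw [fc_eq hb (c := b.act u c) fun i => (ha i).sub (h.slg b.F.toPre i), d1_act ha h, fc_eq hb ha]

omit hb in
theorem p2_apply (η : F2 κ) (s : Option κ × Option κ) : b.p2 x η s = ∑ t, b.B.sd x s t * η t := by
  simp [Bg.p2]

section cv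
variable [l.NeBot] {Ω : Set M} (hΩ : IsOpen Ω) {c : α → Sw.Cfg M κ ν} {c' : Sw.Cfg M κ ν}
  (ha : ∀ i, Cv I l Ω (fun n => (c n).a i) (c'.a i))
include hΩ ha

theorem cv_W (i : Option κ) : Cv I l Ω (fun n => b.W (c n) i) (b.W c' i) :=
  (Cv.fixed' (hb.cc.sm i)).add ((ha i).smul (Cv.fixed' (s_jp hb)))

theorem cv_fc (s : Option κ × Option κ) :
    Cv I l Ω (fun n x => b.fc (c n) x s) fun x => b.fc c' x s :=
  have W := cv_W hb hΩ ha
  (((Cv.fixed' (s_jp hb)).clm hsL).bil (innerSL ℝ) ((((((W s.2).D hΩ b.F.toPre s.1).sub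
    ((W s.1).D hΩ b.F.toPre s.2)).add (((W s.1).mul (W s.2)).sub ((W s.2).mul (W s.1)))).sub
    (Cv.sum fun k => (Cv.fixed' (b.F.c_sm s.1 s.2 k)).smul (W k))).clm hsL)).const_smul (1 / 8)

variable (hΦ : Cv I l Ω (fun n => (c n).Φ) c'.Φ)
include hΦ

theorem cv_eC (s : Option κ × Option κ) :
    Cv I l Ω (fun n x => b.eC (c n) x s) fun x => b.eC c' x s := by
  have P := fun i j => Cv.fixed' (l := l) (Ω := Ω) (hb.B.sP i j)
  have R := fun i => Cv.fixed' (l := l) (Ω := Ω) (hb.cc.sρ i)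
  simp only [Bg.eC, PiLp.sub_apply, p2_apply, Base.sd, Base.a2, Base.st, div_eq_inv_mul]
  exact (Cv.sum fun t => ((((((P _ _).mul (P _ _)).sub ((P _ _).mul (P _ _))).const_smul _).add
    ((Cv.fixed' (hb.B.so _ _ _ _)).const_smul _)).const_smul _).mul ((cv_fc hb hΩ ha t).sub
      ((((((R _).app ((R _).app hΦ)).clm b.m.J).bil (innerSL ℝ) hΦ).const_smul _).const_smul _))).sub
        ((Cv.fixed' hb.com.choose_spec.1).clm (PiLp.proj 2 (fun _ => ℝ) s))

theorem cv_eD : Cv I l Ω (fun n => b.eD (c n)) (b.eD c') :=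
  (Cv.sum fun i => (Cv.fixed' (hb.cc.sρ i)).app ((hΦ.D hΩ b.F.toPre i).add
    ((cv_W hb hΩ ha i).app hΦ))).add ((Cv.fixed' hb.cms.choose_spec.1).app hΦ)

end cv

theorem sm_fc (h : ∀ i, Sm I (c.a i)) (s : Option κ × Option κ) : Sm I fun x => b.fc c x s :=
  fun x => (cv_fc hb (l := (⊤ : Filter Unit)) isOpen_univ (c := fun _ => c)
    (fun i => Cv.fixed' (h i)) s).smoothAt isOpen_univ (mem_univ x)

theorem sm_eC (h : b.Adm c) (s : Option κ × Option κ) : Sm I fun x => b.eC c x s :=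
  fun x => (cv_eC hb (l := (⊤ : Filter Unit)) isOpen_univ (c := fun _ => c)
    (fun i => Cv.fixed' (h.sa i)) (Cv.fixed' h.sΦ) s).smoothAt isOpen_univ (mem_univ x)

theorem sm_eD (h : b.Adm c) : Sm I (b.eD c) :=
  fun x => (cv_eD hb (l := (⊤ : Filter Unit)) isOpen_univ (c := fun _ => c)
    (fun i => Cv.fixed' (h.sa i)) (Cv.fixed' h.sΦ)).smoothAt isOpen_univ (mem_univ x)

end bg

end Crest.Agent.X212.Win45
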