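import Crest.Agent.X212.Win45.Lim

/-!
# X212, SW-WIN (helper45), part 6: windows of small energy are close to a critical point
-/

set_option autoImplicit false
set_option linter.unusedSectionVars false
noncomputable section
open scoped Manifold ContDiff Topology InnerProductSpace
open MeasureTheory Set Function Filter

namespace Crest.Agent.X212.Win45
open An Sob92 Cyf70 Neck67 Cmp73 Bki64 Wz78 Sw Sw.En3
open Sep15.S (gn_nonneg tau_ne admOn_mono sml_mono)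

variable {κ lam ν : Type} [Fintype κ] [Fintype lam] [Fintype ν] [DecidableEq ν]
  {e : En3 κ lam ν} {c : e.ZC} {J : Set ℝ} {k : ℕ} {C s : ℝ}

theorem cl_lb (hJ : IsOpen J) (h : e.cyl.AdmOn c (univ ×ˢ J)) (hc : Cl c ⟨0, 0⟩ J k C) :
    (∀ i, Lb (FZ e) (univ ×ˢ J) k (c.a i) C) ∧ Lb (FZ e) (univ ×ˢ J) k c.Φ C :=
  ⟨fun i => Lb.of_Dw (fun x hx => at_of hJ (h.sa i) hx.2 x.1) fun w hw x hx =>
      sub_zero (c.a i) ▸ (hc w hw x hx).1 i,
    Lb.of_Dw (fun x hx => at_of hJ h.sΦ hx.2 x.1) fun w hw x hx => sub_zero c.Φ ▸ (hc w hw x hx).2⟩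

/-- unperturbed solutions on a window -/
abbrev Lo (c : e.ZC) (s : ℝ) : Prop :=
  Loc (fun _ : Empty => none) 0 c (some (s - 3 / 2)) (some (s + 3 / 2))

theorem Lo.adm (h : Lo c s) {r : ℝ} (hr : r ≤ 5 / 2) : e.cyl.AdmOn c (wn s r) :=
  admOn_mono (loc_adm h) (prod_mono_right (Ioo_subset_Ioo (by linarith) (by linarith)))

theorem Lo.act (hB : PbStmt κ lam ν) (he : e.OK) (h : Lo c s) {u : e.Y.M × ℝ → ℂ}
    (hu : Gau e.Z.I u) : Lo (e.cyl.act u c) s ∧ ∀ t ∈ Ioo (s - 5 / 4) (s + 5 / 4),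
      Eqv (sl c t) (sl (e.cyl.act u c) t) ∧ gn (sl (e.cyl.act u c) t) = gn (sl c t) :=
  let h := hB.loca e he _ _ _ c _ _ u h ⟨hu.1.contMDiffOn, fun x _ => hu.2 x⟩
  ⟨h.1, fun t ht => let k := h.2 t ((jv_eq _ _).ge ⟨by linarith [ht.1], by linarith [ht.2]⟩)
    ⟨k.1, k.2.1⟩⟩

theorem Lo.flow (he : e.OK) (h : Lo c s) (h0 : ∀ x ∈ wn s (3 / 2), c.a none x = 0) {t : ℝ}
    (ht : t ∈ Ioo (s - 3 / 2) (s + 3 / 2)) (y : e.Y.M) :
    (∀ k, 1 * ‖(FZ e).D none (c.a (some k)) (y, t)‖ ^ 2 ≤ dens (gr (sl c t)) y) ∧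
      e.w * ‖(FZ e).D none c.Φ (y, t)‖ ^ 2 ≤ dens (gr (sl c t)) y := by
  have h1 := h.eq (y, t) ⟨trivial, (jv_eq _ _).ge ht⟩
  have h2 := Win45.flow he isOpen_Ioo (h.adm (by norm_num)) ht h0 y h1.1
    (h1.2.trans (by simp [pt, tau]))
  simpa only [h2.1, h2.2, norm_neg] using dens_le he.cyl.w (gr (sl c t)) y

theorem nr0 (hB : PbStmt κ lam ν) (hL : LocwStmt κ lam ν) {g : e.Gen} (hg : g.OK) (hC : Cg e)
    (C C' : ℝ) {η : ℝ} (k : ℕ) (hη : 0 < η) : ∃ ε > 0, ∀ d : e.ZC × ℝ, (Lo d.1 d.2 ∧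
      Sup d.1 (Ioo (d.2 - 3 / 2) (d.2 + 3 / 2)) C ∧ (∃ u, Gau e.Z.I u ∧
        Cl (e.cyl.act u d.1) ⟨0, 0⟩ (Ioo (d.2 - 5 / 4) (d.2 + 5 / 4)) (k + 2) C') ∧
      en d.1 (Ioo (d.2 - 3 / 2) (d.2 + 3 / 2)) ≤ ENNReal.ofReal ε) →
      ∃ o, Nr d.1 (g.pt o) d.2 k η := by
  refine exists_eta fun d hd => ?_
  obtain ⟨c, s, rfl⟩ : ∃ (c : ℕ → e.ZC) (s : ℕ → ℝ), d = fun n => (c n, s n) := ⟨_, _, rfl⟩
  choose h1 h2 h3 h4 using hd
  choose u hu hcl using h3
  dsimp only at h1 h2 h4 hcl ⊢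
  have he := hg.ok
  set ε : ℕ → ℝ := fun n => 1 / ((n : ℝ) + 1)
  have εt : Tendsto ε (hyperfilter ℕ) (𝓝 0) :=
    tendsto_one_div_add_atTop_nhds_zero_nat.mono_left Nat.hyperfilter_le_atTop
  choose t ht hgn using fun n => exists_sl (s := s n) Nat.one_div_pos_of_nat
    ((lintegral_mono_set (Ioo_subset_Ioo (by linarith) (by linarith))).trans (h4 n))
  have tm : ∀ {r : ℝ}, 1 / 2 ≤ r → ∀ n, t n ∈ Ioo (s n - r) (s n + r) := fun hr n =>
    ⟨by linarith [(ht n).1], by linarith [(ht n).2]⟩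
  obtain ⟨v', v₀, k1, k2, k3⟩ := lim3 he hg.w hC (𝒰 := hyperfilter ℕ)
    (v := fun n => sl (c n) (t n))
    (fun n => adm_sl isOpen_Ioo ((h1 n).adm (r := 1) (by norm_num)) (tm (by norm_num) n))
    (squeeze_zero (fun n => gn_nonneg hg.w.le _) hgn
      (by simpa only [mul_zero] using εt.const_mul 2)) fun j => by
      obtain ⟨B, H⟩ := hL e he hg.w (max C 1) (1 / 4) 3 j (by norm_num)
      choose u hu hcl using fun n => H _ _ _ _ _ _ (by linarith) ⟨fun _ => 0, by simp, by simp⟩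
        (h1 n) (fun x hx => (h2 n x hx).trans (le_max_left _ _)) ((h4 n).trans
          (ENNReal.ofReal_le_ofReal (Nat.one_div_le_one_div (Nat.zero_le n) |>.trans (by simp))))
      have A := fun n => (h1 n).act hB he (hu n)
      have b := fun n => cl_lb isOpen_Ioo (admOn_mono (loc_adm (A n).1) (prod_mono_right
        (Ioo_subset_Ioo (by linarith) (by linarith)))) (hcl n)
      have m : ∀ n, t n ∈ Ioo (s n - 3 / 2 + 1 / 2 + 1 / 4) (s n + 3 / 2 - 1 / 2 - 1 / 4) :=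
        fun n => ⟨by linarith [(ht n).1], by linarith [(ht n).2]⟩
      exact ⟨_, fun n => ((A n).2 _ (tm (by norm_num) n)).1, fun i => ⟨B, .of_forall fun n =>
        ⟨isOpen_univ, lb_slc (m n) ((b n).1 _)⟩⟩, B, .of_forall fun n =>
        ⟨isOpen_univ, lb_slc (m n) (b n).2⟩⟩
  choose h hh eh using k1
  choose U U1 U2 U3 U4 using fun n => exists_tmp (F := FY e) (r' := 3 / 2) (by norm_num)
    (by norm_num) (((h1 n).adm le_rfl).sa none) (t n) (hh n).1 (hh n).2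
  have hU : ∀ n, Gau e.Z.I (U n) := fun n => ⟨U1 n, U2 n⟩
  set c2 := fun n => e.cyl.act (U n) (c n)
  have A := fun n => (h1 n).act hB he (hU n)
  have a0 : ∀ n, ∀ x ∈ wn (s n) (3 / 2), (c2 n).a none x = 0 := fun n x hx =>
    sub_eq_zero.2 (U4 n x hx).symm
  have ea : ∀ n i y, (c2 n).a (some i) (y, t n) = (v' n).a i y := fun n i y =>
    (congrArg (_ - ·) ((lg_sl (U1 n _) i).trans (by simp only [U3]))).trans
      ((act3 (hh n) (eh n)).1 i y).symm
  have eP : ∀ n y, (c2 n).Φ (y, t n) = (v' n).Φ y := fun n y =>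
    (congrArg (cs _ · _) (U3 n y)).trans ((act3 (hh n) (eh n)).2 y).symm
  have sa : ∀ {r : ℝ}, r ≤ 5 / 2 → ∀ i n, ∀ x ∈ wn (s n) r, SA _ ((c2 n).a i) x :=
    fun hr i n x hx => at_of isOpen_Ioo (((A n).1.adm hr).sa i) hx.2 x.1
  have sP : ∀ {r : ℝ}, r ≤ 5 / 2 → ∀ n, ∀ x ∈ wn (s n) r, SA _ (c2 n).Φ x :=
    fun hr n x hx => at_of isOpen_Ioo ((A n).1.adm hr).sΦ hx.2 x.1
  have op : ∀ r, ∀ᶠ n in hyperfilter ℕ, IsOpen ((fun n => (wn (s n) r : Set (e.Y.M × ℝ))) n) :=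
    fun r => .of_forall fun _ => wn_op
  have sub : ∀ {r : ℝ}, r ≤ 3 / 2 → ∀ n, (wn (s n) r : Set (e.Y.M × ℝ)) ⊆ wn (s n) (3 / 2) :=
    fun hr n => prod_mono_right (Ioo_subset_Ioo (by linarith) (by linarith))
  have b := fun n => cl_lb isOpen_Ioo (((h1 n).act hB he (hu n)).1.adm (by norm_num)) (hcl n)
  have bL : ∀ i, BB (FZ e) (hyperfilter ℕ) (fun n => wn (s n) (5 / 4)) (k + 2)
      fun n => (e.cyl.act (u n) (c n)).a i := fun i => ⟨C', .of_forall fun n => ⟨wn_op, (b n).1 i⟩⟩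
  have b0 : ∀ j, BB (FZ e) (hyperfilter ℕ) (fun n => wn (s n) (5 / 4)) (k + 1)
      fun n => (FZ e).D none ((c2 n).a (some j)) := fun j =>
    (((bL (some j)).D none).sub ((bL none).D (some j))).congr (.of_forall fun n x hx => by
      have sc := fun i => at_of isOpen_Ioo (((h1 n).adm (by norm_num)).sa i) hx.2 x.1
      have z : (FZ e).D (some j) ((c2 n).a none) x = 0 := (dv_congr ((wn_op.eventually_mem
        (sub (by norm_num) n hx)).mono (a0 n))).trans (congrFun (dv_const _) _)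
      rw [← d1_none, d1_act sc ((hu n).un x), ← d1_act sc ((hU n).un x), d1_none, z, sub_zero])
  have b1 : ∀ i, BB (FZ e) (hyperfilter ℕ) (fun n => wn (s n) (5 / 4)) (k + 1)
      fun n => (c2 n).a i := fun i => by
    cases i with
    | none => exact (BB.const (op _) 0).congr (.of_forall fun n x hx => a0 n x (sub (by norm_num) n hx))
    | some j => exact ((bb_prim (tm (by norm_num)) (sa (by norm_num) _) (b0 j)).add
        (bb_fst (op _) ((k3 _).1 j))).congr (.of_forall fun n x _ => by rw [ea, sub_add_cancel])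
  have b2 : BB (FZ e) (hyperfilter ℕ) (fun n => wn (s n) (5 / 4)) (k + 2) fun n => (c2 n).Φ :=
    bb_tr he.cyl.m.Jsq (fun n x _ => (hu n).un x) (fun n x _ => (hU n).un x)
      (a := fun i n => (c n).a i) (fun i => (bL i).of_le (k + 1).le_succ) b1
      ⟨C', .of_forall fun n => ⟨wn_op, (b n).2⟩⟩
  have zz : ∀ {N : Type} [NormedAddCommGroup N] [NormedSpace ℝ N] {r : ℝ}, 0 < r →
      ∀ {f : ℕ → e.Y.M × ℝ → N} {φ : e.Y.M → N}, (∀ n, ∀ x ∈ wn (s n) 1, SA _ (f n) x) →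
      BB (FZ e) (hyperfilter ℕ) (fun n => wn (s n) (5 / 4)) (k + 1) (fun n => (FZ e).D none (f n)) →
      (∀ n, ∀ t ∈ Ioo (s n - 3 / 2) (s n + 3 / 2), ∀ y,
        r * ‖(FZ e).D none (f n) (y, t)‖ ^ 2 ≤ dens (gr (sl (c2 n) t)) y) →
      ZY e (hyperfilter ℕ) k (fun n y => f n (y, t n) - φ y) →
      ZZ (FZ e) (hyperfilter ℕ) (fun n => wn (s n) 1) k fun n x => f n x - φ x.1 :=
    fun {N _ _ r} hr {f φ} s1 s2 s3 s4 => by
      refine ((zz_prim (tm (by norm_num)) s1 (zz_of_l2 (by norm_num) s2 ?_)).add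
        (zz_fst (op _) s4)).congr' fun n x => (sub_add_sub_cancel _ _ _).symm
      have := ENNReal.Tendsto.const_mul (a := ENNReal.ofReal r⁻¹) (ENNReal.tendsto_ofReal εt)
        (.inr ENNReal.ofReal_ne_top)
      rw [ENNReal.ofReal_zero, mul_zero] at this
      refine tendsto_of_tendsto_of_tendsto_of_le_of_le tendsto_const_nhds this
        (fun _ => zero_le) fun n => (setLIntegral_mono' measurableSet_Ioo fun t ht =>
          (l2_le he (adm_sl isOpen_Ioo ((A n).1.adm (by norm_num)) ht) hr (s3 n t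
            (sub (by norm_num) n (mk_mem_prod (mem_univ (Classical.arbitrary _)) ht)).2)).trans_eq
            (by rw [((A n).2 t ht).2])).trans ?_
      rw [lintegral_const_mul' _ _ ENNReal.ofReal_ne_top]
      exact mul_le_mul_right ((lintegral_mono_set
        (Ioo_subset_Ioo (by linarith) (by linarith))).trans (h4 n)) _
  have fl := fun n t ht y => (A n).1.flow he (a0 n) (t := t) ht y
  have za : ∀ i, ZZ (FZ e) (hyperfilter ℕ) (fun n => wn (s n) 1) k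
      fun n x => (c2 n).a i x - (fz v₀).a i x := fun i => by
    cases i with
    | none => exact (ZZ.zero (op _)).congr (.of_forall fun n x hx =>
        sub_eq_zero.2 (a0 n x (sub (by norm_num) n hx)))
    | some j =>
      exact zz one_pos (sa (by norm_num) _) (b0 j) (fun n t ht y => (fl n t ht y).1 j)
        (((k3 k).2.1 j).congr' fun n y => by rw [ea])
  have zP := zz hg.w (sP (by norm_num)) (b2.D none) (fun n t ht y => (fl n t ht y).2)
    ((k3 k).2.2.congr' fun n y => by rw [eP])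
  obtain ⟨o, G, hG, eG⟩ := hg.all v₀ k2
  have uG := fun x => (un_fst hG x).st
  have z1 : ∀ i, ZZ (FZ e) (hyperfilter ℕ) (fun n => wn (s n) 1) k fun n =>
      (e.cyl.act (fun x => star (G x.1) * U n x) (c n)).a i - (fz (g.pt o)).a i := fun i =>
    (za i).congr' fun n x => by
      have := (lg_mul (FZ e) (uG x) ((hU n).un x) i).trans
        (congrArg (· + _) (lg_star (FZ e) (un_fst hG x) i))
      rw [eG]
      change (c n).a i x - lg (FZ e) i (fun x => star (G x.1) * U n x) x - (fz (g.pt o)).a i x =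
        (c n).a i x - lg (FZ e) i (U n) x - ((fz (g.pt o)).a i x - lg (FZ e) i (fun x => G x.1) x)
      rw [this]
      ring
  have z2 : ZZ (FZ e) (hyperfilter ℕ) (fun n => wn (s n) 1) k fun n =>
      (e.cyl.act (fun x => star (G x.1) * U n x) (c n)).Φ - (fz (g.pt o)).Φ :=
    (zz_cs e.m.J (BB.fst (op _) k fun y => (un3 hG y).st.1) zP).congr' fun n x => by
      rw [Win39.cs_sub_r, (act3 hG eG).2, Eqv71.cs_mul (Win39.Jsq he), st_mul (hG.2 _), Eqv71.cs_one]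
      exact congrArg (· - _) (Eqv71.cs_mul (Win39.Jsq he) _ _ _).symm
  obtain ⟨n, n1, n2⟩ := ((eventually_all.2 fun i => z1 i η hη).and (z2 η hη)).exists
  exact ⟨n, o, _, ⟨fun x _ => ((uG x).mul ((hU n).un x)).1.contMDiffWithinAt, fun x _ =>
    ((uG x).mul ((hU n).un x)).2.self_of_nhds⟩, fun w hw x hx =>
      ⟨fun i => (n1 i).2.Dw w hw x hx, n2.2.Dw w hw x hx⟩⟩

/-- the field `nr` of `WinStmt` -/
theorem nr (hB : PbStmt κ lam ν) (hD : DlStmt κ lam ν) (hP : PsyStmt κ lam ν)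
    (hL : LocwStmt κ lam ν) (e : En3 κ lam ν) (hC : e.OK → Cg e) (g : e.Gen) (hg : g.OK) (C η : ℝ)
    (k : ℕ) (hη : 0 < η) : ∃ ε > 0, ∀ (W : Type) (T : W → Option e.YT) q c s, Sml T q (k + 4) C →
      Loc T q c (some (s - 2)) (some (s + 2)) → Sup c (Ioo (s - 2) (s + 2)) C →
      en c (Ioo (s - 2) (s + 2)) ≤ ENNReal.ofReal ε → ∃ o, Nr c (g.pt o) s k η := by
  obtain ⟨C', H⟩ := hL e hg.ok hg.w (max C 1) (1 / 4) 4 (k + 2) (by norm_num)
  obtain ⟨ε₁, p1, H1⟩ := nr0 hB hL hg (hC hg.ok) C C' k hη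
  obtain ⟨ε₂, p2, H2⟩ : ∃ ε > 0, e.Inv → ∀ (c : e.ZC) (a b s : ℝ), b - a ≤ 4 →
      Icc (s - 1 / 2) (s + 1 / 2) ⊆ Ioo a b → e.cyl.AdmOn c (univ ×ˢ Ioo a b) → Alm c (Ioo a b) C →
      Sup c (Ioo a b) C → en c (Ioo a b) ≤ ENNReal.ofReal ε → lb c s ∉ e.S := by
    by_cases hi : e.Inv
    · exact (gap0 hD hP hg hi C).imp fun _ h => ⟨h.1, fun _ => h.2⟩
    · exact ⟨1, one_pos, fun h => absurd h hi⟩
  refine ⟨min 1 (min ε₁ ε₂), by positivity, fun W T q c s h1 h2 h3 h4 => ?_⟩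
  have m : Ioo (s - 3 / 2) (s + 3 / 2) ⊆ Ioo (s - 2) (s + 2) :=
    Ioo_subset_Ioo (by linarith) (by linarith)
  have le : ∀ {r : ℝ}, min 1 (min ε₁ ε₂) ≤ r → en c (Ioo (s - 2) (s + 2)) ≤ ENNReal.ofReal r :=
    fun h => h4.trans (ENNReal.ofReal_le_ofReal h)
  have A : ∀ {a b : ℝ}, s - 3 ≤ a → b ≤ s + 3 → e.cyl.AdmOn c (univ ×ˢ Ioo a b) := fun h h' =>
    admOn_mono (loc_adm h2) (prod_mono_right (Ioo_subset_Ioo (by linarith) (by linarith)))
  obtain ⟨u, hu, hcl⟩ := H W T q c _ _ (by linarith) (sml_mono h1 le_rfl (le_max_left _ _)) h2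
    (fun x hx => (h3 x hx).trans (le_max_left _ _)) (le ((min_le_left _ _).trans (le_max_right _ _)))
  refine H1 (c, s) ⟨⟨(jv_eq _ _).symm ▸ A (by linarith) (by linarith), fun x hx => ?_⟩,
    fun x hx => h3 x ⟨trivial, m hx.2⟩, ⟨u, hu, fun w hw x hx => hcl w hw x ⟨trivial,
      by linarith [hx.2.1], by linarith [hx.2.2]⟩⟩, (lintegral_mono_set m).trans
        (le ((min_le_right _ _).trans (min_le_left _ _)))⟩
  have hx' := (jv_eq _ _).le hx.2
  have h5 := h2.eq x ⟨trivial, (jv_eq _ _).ge (m hx')⟩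
  have h6 : tau T q c x = 0 := by_contra fun h => H2 (tau_ne h).1 c _ _ x.2 (by linarith)
    (Icc_subset_Ioo (by linarith [hx'.1]) (by linarith [hx'.2])) (A (by linarith) (by linarith))
    (loc_alm h1 h2) h3 (le ((min_le_right _ _).trans (min_le_right _ _))) (tau_ne h).2
  exact ⟨h5.1, h5.2.trans (congrArg (_ + ·) (h6.trans (Finsupp.sum_zero_index).symm))⟩

end Crest.Agent.X212.Win45
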